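import Vale.Agent.P284.H894.MkCoc
import Vale.Agent.P272.KOD.CovEx

/-! # P284 (helper841), A4: smooth partition of unity for the pieces (model: `KOD.CovEx`). -/

open scoped Manifold ContDiff Topology ComplexConjugate ComplexOrder
open Filter Set Metric

noncomputable section

namespace Vale.Agent.P284.H894

open Vale.Agent.P272.K Vale.Agent.P284.H248 Vale.Agent.P272.K.LIN

variable {n : ℕ} {X : Type} [TopologicalSpace X] [ChartedSpace (Cm n) X] {L : LineBundle n X}

namespace Pcs
variable (P : Pcs L)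

/-- bump functions supported in the ball of radius `2 r` -/
def bmp (i : P.I) : ContDiffBump (P.c i) where
  rIn := P.r i
  rOut := 2 * P.r i
  rIn_pos := P.r_pos i
  rIn_lt_rOut := by have := P.r_pos i; linarith

/-- the bump functions on `X` -/
def bet (i : P.I) : X → ℝ := ext0 (P.e i) (P.bmp i)

/-- the partition of unity -/
def chi (i : P.I) (x : X) : ℝ := P.bet i x / ∑ j, P.bet j x

lemma bet_nonneg (i : P.I) (x : X) : 0 ≤ P.bet i x := by
  unfold bet ext0
  exact indicator_nonneg (fun x _ => (P.bmp i).nonneg) x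

lemma bet_ne_zero {i : P.I} {x : X} (h : P.bet i x ≠ 0) :
    x ∈ (P.e i).source ∧ P.e i x ∈ closedBall (P.c i) (2 * P.r i) := by
  have hx : x ∈ (P.e i).source := by
    by_contra hx
    exact h (ext0_of_notMem hx)
  refine ⟨hx, ?_⟩
  by_contra h2
  apply h
  rw [bet, ext0_of_mem hx]
  apply (P.bmp i).zero_of_le_dist
  simp only [mem_closedBall, not_le] at h2
  exact h2.le

lemma bet_ck [T2Space X] [IsManifold 𝓘(ℂ, Cm n) ω X] (i : P.I) :
    CkFn (Cm n) ∞ (P.bet i) := by
  have := Vale.Agent.P272.KOD.rsm n X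
  refine ext0_ck le_rfl (P.mem i) (K := closedBall (P.c i) (2 * P.r i)) (isCompact_closedBall _ _)
    ((closedBall_subset_closedBall (by have := P.r_pos i; linarith)).trans (P.sub i))
    (fun y hy => ?_) fun y _ => (P.bmp i).contDiffAt
  apply (P.bmp i).zero_of_le_dist
  simp only [mem_closedBall, not_le] at hy
  exact hy.le

lemma bet_sum_pos (x : X) : 0 < ∑ j, P.bet j x := by
  obtain ⟨i, hx, hi⟩ := P.cover x
  have h1 : P.bet i x = 1 := by
    rw [bet, ext0_of_mem hx]
    exact (P.bmp i).one_of_mem_closedBall (ball_subset_closedBall hi)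
  have h2 : P.bet i x ≤ ∑ j, P.bet j x :=
    Finset.single_le_sum (f := fun j => P.bet j x) (fun j _ => P.bet_nonneg j x)
      (Finset.mem_univ i)
  linarith

lemma chi_ck [T2Space X] [IsManifold 𝓘(ℂ, Cm n) ω X] (i : P.I) :
    CkFn (Cm n) ∞ (P.chi i) :=
  (P.bet_ck i).div (CkFn.sum fun j _ => P.bet_ck j) fun x => (P.bet_sum_pos x).ne'

lemma chi_nonneg (i : P.I) (x : X) : 0 ≤ P.chi i x :=
  div_nonneg (P.bet_nonneg i x) (P.bet_sum_pos x).le

lemma chi_sum (x : X) : ∑ i, P.chi i x = 1 := by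
  unfold chi
  rw [← Finset.sum_div]
  exact div_self (P.bet_sum_pos x).ne'

lemma chi_ne_zero {i : P.I} {x : X} (h : P.chi i x ≠ 0) :
    x ∈ (P.e i).source ∧ P.e i x ∈ closedBall (P.c i) (2 * P.r i) :=
  P.bet_ne_zero fun h0 => h (by rw [chi, h0, zero_div])

end Pcs

/-- **A4**: the partition of unity. -/
def mkPU [T2Space X] [IsManifold 𝓘(ℂ, Cm n) ω X] (P : Pcs L) {Γ : Type} [Group Γ] (K : KD P Γ) :
    PU (mkCoc P K) where
  χ b a z := P.chi b ((P.e a).symm z)
  smooth b a _z hz := (P.chi_ck b).at_target (P.mem a) (P.target hz)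
  nonneg b a z := P.chi_nonneg b _
  sum_one a z _ := P.chi_sum _
  K b := closedBall (P.c b) (2 * P.r b)
  compactK b := isCompact_closedBall _ _
  K_sub b := closedBall_subset_ball (by have := P.r_pos b; show _ < 3 * P.r b; linarith)
  supp b a z hz h := by
    obtain ⟨h1, h2⟩ := P.chi_ne_zero h
    exact ⟨⟨hz, h1, closedBall_subset_ball (by have := P.r_pos b; linarith) h2⟩, h2⟩
  compat b a d z hz := by
    show P.chi b ((P.e a).symm z) = P.chi b ((P.e d).symm (P.T a d z))
    rw [P.symm_T hz]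

theorem a4 : A4Stmt := by
  intro n X _ _ _ _ _ L P Γ _ K
  exact ⟨mkPU P K⟩

end Vale.Agent.P284.H894
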